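import Vale.Agent.P215.R2.H743.Uniform
import Vale.Agent.P215.R2.H604.FreeP
import Vale.Agent.P215.R2.H652.Lawless

/-!
# P215: classes without a law, and the main theorem
-/

noncomputable section

namespace Vale.Agent.P215.H743

open Vale.Agent.P215.H788 Vale.Agent.P215.R2.H652 Filter Topology

/-- The finite `p`-groups. -/
def IsFinitePGroup (p : ℕ) (Q : Type) [Group Q] : Prop := Finite Q ∧ IsPGroup p Q

theorem groupClass_pGroup (p : ℕ) : GroupClass (IsFinitePGroup p) where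
  finite := fun _ _ h => h.1
  unit := ⟨inferInstance, fun _ => ⟨0, rfl⟩⟩
  iso := fun _ _ _ _ e h => ⟨have := h.1; Finite.of_equiv _ e.toEquiv, h.2.of_equiv e⟩
  prod := fun Q R _ _ hQ hR => by
    have := hQ.1
    have := hR.1
    refine ⟨inferInstance, fun g => ?_⟩
    obtain ⟨a, ha⟩ := hQ.2 g.1
    obtain ⟨b, hb⟩ := hR.2 g.2
    refine ⟨a + b, Prod.ext ?_ ?_⟩
    · rw [Prod.pow_fst, pow_add, pow_mul, ha, one_pow, Prod.fst_one]
    · rw [Prod.pow_snd, pow_add, mul_comm, pow_mul, hb, one_pow, Prod.snd_one]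

theorem noLaw_pGroup (p : ℕ) [Fact p.Prime] : NoLaw (IsFinitePGroup p) := by
  intro w hw
  obtain ⟨Q, i, f, h1, h2, h3⟩ := H604.free_resid p w hw
  exact ⟨Q, i, ⟨h1, h2⟩, f, h3⟩

/-- The zero-one law, and the equivalent forms of uniformity, for a class of finite groups which is
closed under finite products. -/
theorem zero_one_tfae {K : (Q : Type) → [Group Q] → Prop} (hK : GroupClass K) (ε : ℕ → ℝ)
    (hε : ∀ m, 0 < ε m ∧ ε m < 1) :
    ∃ (Q : ℕ → Type) (_ : ∀ m, Group (Q m)), (∀ m, K (Q m)) ∧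
      (∀ (G : CappedGrope) (D : GDisc G),
        (∀ (R : Type) [Group R], K R → ∀ φ : Pi1 G →* R, D.Kills φ) ∨
        ∀ᶠ m in atTop, proportion D (Q m) ≤ ε m) ∧
      [OneDisc K,
        FinitelyMany K,
        Sequences K,
        ∀ G : CappedGrope, ∃ D : GDisc G, ∃ᶠ m in atTop, ε m < proportion D (Q m),
        ∀ (R : ℕ → Type) [∀ i, Group (R i)], (∀ i, K (R i)) → Good (∀ i, R i),
        ∀ (Γ : Type) [Group Γ], Residually K Γ → Good Γ].TFAE := by
  obtain ⟨Q, inst, hQ, h01⟩ := zero_one hK ε fun m => (hε m).1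
  refine ⟨Q, inst, hQ, h01, ?_⟩
  tfae_have 1 → 6 := fun h => good_of_oneDisc h
  tfae_have 6 → 5 := fun h => good_pi h
  tfae_have 5 → 3 := fun h => sequences_of_good h
  tfae_have 3 → 2 := fun h => finitelyMany_of_sequences h
  tfae_have 2 → 1 := fun h => oneDisc_of_finitelyMany hK h
  tfae_have 1 → 4 := fun h G => by
    obtain ⟨D, hD⟩ := h G
    refine ⟨D, Frequently.of_forall fun m => ?_⟩
    have := hK.finite _ (hQ m)
    rw [proportion_eq_one D (Q m) (hD (Q m) (hQ m))]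
    exact (hε m).2
  tfae_have 4 → 1 := fun h G => by
    obtain ⟨D, hD⟩ := h G
    exact ⟨D, (h01 G D).resolve_right fun h1 => hD (h1.mono fun m hm => not_lt.2 hm)⟩
  tfae_finish

end Vale.Agent.P215.H743
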