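import Vale.Agent.P215.R2.H652.Perm

/-!
# P215: short nontrivial words survive in small symmetric groups

The construction of `R2/H652/Perm.lean`, with arbitrary letters and with control of the degree.
-/

noncomputable section

namespace Vale.Agent.P215.H743

open Vale.Agent.P215.R2.H652

variable {X : Type}

/-- the relation of the letter `a`: the letter number `j` maps the point `j + 1` to the point `j` -/
def relX (n : ℕ) (L : List (X × Bool)) (a : X) (x y : Fin n) : Prop :=
  (∃ j : ℕ, L[j]? = some (a, true) ∧ x.1 = j + 1 ∧ y.1 = j) ∨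
    (∃ j : ℕ, L[j]? = some (a, false) ∧ x.1 = j ∧ y.1 = j + 1)

theorem not_bothX {L : List (X × Bool)} (hL : FreeGroup.IsReduced L) {a : X} {b : Bool} {j : ℕ}
    (h1 : L[j]? = some (a, b)) (h2 : L[j + 1]? = some (a, !b)) : False := by
  obtain ⟨hj, h1⟩ := List.getElem?_eq_some_iff.1 h1
  obtain ⟨hj', h2⟩ := List.getElem?_eq_some_iff.1 h2
  have := List.isChain_iff_getElem.1 hL j hj'
  rw [h1, h2] at this
  simpa using this rfl

theorem exists_sigmaX (n : ℕ) {L : List (X × Bool)} (hL : FreeGroup.IsReduced L) (a : X) :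
    ∃ σ : Equiv.Perm (Fin n), ∀ x y, relX n L a x y → σ x = y := by
  apply exists_perm
  · rintro x y y' (⟨j, hj, hx, hy⟩ | ⟨j, hj, hx, hy⟩) (⟨j', hj', hx', hy'⟩ | ⟨j', hj', hx', hy'⟩)
    · exact Fin.ext (by omega)
    · exfalso
      have : j' = j + 1 := by omega
      subst this
      exact not_bothX hL hj hj'
    · exfalso
      have : j = j' + 1 := by omega
      subst this
      exact not_bothX hL hj' hj
    · exact Fin.ext (by omega)
  · rintro x x' y (⟨j, hj, hx, hy⟩ | ⟨j, hj, hx, hy⟩) (⟨j', hj', hx', hy'⟩ | ⟨j', hj', hx', hy'⟩)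
    · exact Fin.ext (by omega)
    · exfalso
      have : j = j' + 1 := by omega
      subst this
      exact not_bothX hL hj' hj
    · exfalso
      have : j' = j + 1 := by omega
      subst this
      exact not_bothX hL hj hj'
    · exact Fin.ext (by omega)

/-- A nontrivial word of length less than `n` survives in the symmetric group of degree `n`. -/
theorem exists_perm_of_norm_lt [DecidableEq X] (w : FreeGroup X) (hw : w ≠ 1) (n : ℕ)
    (hn : w.norm < n) : ∃ α : FreeGroup X →* Equiv.Perm (Fin n), α w ≠ 1 := by
  obtain ⟨L, hL⟩ : ∃ L, L = w.toWord := ⟨_, rfl⟩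
  have hred : FreeGroup.IsReduced L := hL ▸ FreeGroup.isReduced_toWord
  have hLne : L ≠ [] := fun h => hw (FreeGroup.toWord_eq_nil_iff.1 (hL ▸ h))
  have hlen : L.length < n := by
    rw [hL]
    exact hn
  choose σ hσ using fun a => exists_sigmaX n hred a
  refine ⟨FreeGroup.lift σ, fun h => ?_⟩
  have key : ∀ k, (hk : k ≤ L.length) → ((L.drop (L.length - k)).map fun x : X × Bool =>
      cond x.2 (σ x.1) (σ x.1)⁻¹).prod ⟨L.length, hlen⟩ = ⟨L.length - k, by omega⟩ := by
    intro k
    induction k with
    | zero =>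
      intro _
      simp
    | succ k ih =>
      intro hk
      have hlt : L.length - (k + 1) < L.length := by omega
      rw [List.drop_eq_getElem_cons hlt]
      rw [show L.length - (k + 1) + 1 = L.length - k by omega]
      rw [List.map_cons, List.prod_cons, Equiv.Perm.mul_apply, ih (by omega)]
      obtain ⟨⟨a, b⟩, hab⟩ : ∃ c, c = L[L.length - (k + 1)] := ⟨_, rfl⟩
      rw [← hab]
      have hget : L[L.length - (k + 1)]? = some (a, b) := by
        rw [List.getElem?_eq_getElem hlt, hab]
      cases b with
      | true =>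
        refine hσ a _ _ (Or.inl ⟨L.length - (k + 1), hget, ?_, rfl⟩)
        simp only
        omega
      | false =>
        show (σ a)⁻¹ _ = _
        rw [Equiv.Perm.inv_eq_iff_eq]
        symm
        refine hσ a _ _ (Or.inr ⟨L.length - (k + 1), hget, rfl, ?_⟩)
        simp only
        omega
  have h0 := key L.length le_rfl
  have h1 : FreeGroup.lift σ w = ((L.drop (L.length - L.length)).map fun x : X × Bool =>
      cond x.2 (σ x.1) (σ x.1)⁻¹).prod := by
    rw [Nat.sub_self, List.drop_zero]
    conv_lhs => rw [← FreeGroup.mk_toWord (x := w), ← hL]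
    exact FreeGroup.lift_mk
  rw [← h1, h] at h0
  have h2 := congrArg Fin.val h0
  simp only [Equiv.Perm.coe_one, id_eq, Nat.sub_self] at h2
  exact hLne (List.length_eq_zero_iff.1 h2)

end Vale.Agent.P215.H743
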