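import Vale.Agent.P215.R2.H743.Uniform
import Vale.Agent.P215.R2.H743.PermX

/-!
# P215: the gap theorem for the complexity of the discs
-/

noncomputable section

namespace Vale.Agent.P215.H743

open Vale.Agent.P215.H788

/-- The class of the double point loop number `k`, joined to the base point by the path `c`. -/
def loopClass {G : CappedGrope} (D : GDisc G) (k : Fin D.n) (c : Path G.basePt (D.map (D.fst k)))
    (l : Path (D.fst k) (D.snd k)) : Pi1 G :=
  FundamentalGroup.fromPath
    (Path.Homotopic.Quotient.mk ((c.trans (D.doublePointLoop k l)).trans c.symm))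

/-- The images of all double point loops in the free group have cyclic length less than `n`: they
are conjugate to elements of word length less than `n`. -/
def Short {G : CappedGrope} {X : Type} [DecidableEq X] (D : GDisc G) (ψ : Pi1 G →* FreeGroup X)
    (n : ℕ) : Prop :=
  ∀ (k : Fin D.n) (c : Path G.basePt (D.map (D.fst k))) (l : Path (D.fst k) (D.snd k)),
    ∃ g : FreeGroup X, (g * ψ (loopClass D k c l) * g⁻¹).norm < n

theorem kills_of_short {G : CappedGrope} {X : Type} [DecidableEq X] (D : GDisc G)
    (ψ : Pi1 G →* FreeGroup X) (n : ℕ) (h : Short D ψ n) (N : Subgroup (FreeGroup X)) [N.Normal]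
    (hN : ∀ w ∈ N, w.norm < n → w = 1) (hD : D.Kills ((QuotientGroup.mk' N).comp ψ)) :
    D.Kills ψ := by
  intro k c l
  obtain ⟨g, hg⟩ := h k c l
  have h1 : ψ (loopClass D k c l) ∈ N := by
    have := hD k c l
    rwa [MonoidHom.comp_apply, QuotientGroup.mk'_apply, QuotientGroup.eq_one_iff] at this
  have h2 := hN _ (Subgroup.Normal.conj_mem inferInstance _ h1 g) hg
  have h3 : ψ (loopClass D k c l) = 1 := by
    have : ψ (loopClass D k c l) = g⁻¹ * (g * ψ (loopClass D k c l) * g⁻¹) * g := by group
    rw [this, h2]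
    group
  exact h3

theorem short_of_kills {G : CappedGrope} {X : Type} [DecidableEq X] (D : GDisc G)
    (ψ : Pi1 G →* FreeGroup X) (n : ℕ) (hn : 0 < n) (hD : D.Kills ψ) : Short D ψ n := by
  intro k c l
  refine ⟨1, ?_⟩
  have h3 : ψ (loopClass D k c l) = 1 := hD k c l
  rw [h3]
  simpa using hn

theorem kills_of_short_perm {G : CappedGrope} {X : Type} [DecidableEq X] (D : GDisc G)
    (ψ : Pi1 G →* FreeGroup X) (n : ℕ) (h : Short D ψ n)
    (hD : ∀ α : FreeGroup X →* Equiv.Perm (Fin n), D.Kills (α.comp ψ)) : D.Kills ψ := by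
  intro k c l
  obtain ⟨g, hg⟩ := h k c l
  by_contra hne
  have hne' : ψ (loopClass D k c l) ≠ 1 := hne
  have h1 : g * ψ (loopClass D k c l) * g⁻¹ ≠ 1 := by
    intro h2
    apply hne'
    have : ψ (loopClass D k c l) = g⁻¹ * (g * ψ (loopClass D k c l) * g⁻¹) * g := by group
    rw [this, h2]
    group
  obtain ⟨α, hα⟩ := exists_perm_of_norm_lt _ h1 n hg
  apply hα
  have h2 : α (ψ (loopClass D k c l)) = 1 := hD α k c l
  rw [map_mul, map_mul, h2, mul_one, ← map_mul, mul_inv_cancel, map_one]

end Vale.Agent.P215.H743
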