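import Vale.Agent.P215.R2.H743.Girth
import Vale.Agent.P215.R2.H891.Derived

/-!
# P215: the derived series of a free group, length at least `4 * 3 ^ d`
-/

noncomputable section

namespace Vale.Agent.P215.H743.Girth

open Vale.Agent.P215.H891

variable {α : Type}

theorem seg_snoc (ℓ : ℕ → α × Bool) : ∀ k i, seg ℓ i (k + 1) = seg ℓ i k ++ [ℓ (i + k)]
  | 0, i => rfl
  | k + 1, i => by
    have h := seg_snoc ℓ k (i + 1)
    rw [seg, h, seg, List.cons_append, show i + (k + 1) = i + 1 + k by omega]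

theorem seg_split (ℓ : ℕ → α × Bool) (a : α × Bool) (L₂ : List (α × Bool)) :
    ∀ (L₁ : List (α × Bool)) (k i : ℕ), seg ℓ i k = L₁ ++ a :: L₂ →
      ℓ (i + L₁.length) = a ∧ L₁ = seg ℓ i L₁.length
  | [], 0, i, h => by simp [seg] at h
  | [], k + 1, i, h => by
    simp only [seg, List.nil_append, List.cons.injEq] at h
    exact ⟨h.1, rfl⟩
  | b :: L₁, 0, i, h => by simp [seg] at h
  | b :: L₁, k + 1, i, h => by
    simp only [seg, List.cons_append, List.cons.injEq] at h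
    obtain ⟨h1, h2⟩ := seg_split ℓ a L₂ L₁ k (i + 1) h.2
    refine ⟨?_, ?_⟩
    · rw [← h1, List.length_cons]
      congr 1
      omega
    · rw [List.length_cons, seg, ← h2, h.1]

theorem seg_eq_of_get (L : List (α × Bool)) (ℓ : ℕ → α × Bool) :
    ∀ (M : List (α × Bool)) (i : ℕ), (∀ j (hj : j < M.length), ℓ (i + j) = M[j]) →
      seg ℓ i M.length = M
  | [], _, _ => rfl
  | a :: M, i, h => by
    rw [List.length_cons, seg, seg_eq_of_get L ℓ M (i + 1) ?_]
    · have := h 0 (by simp)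
      simp only [add_zero, List.getElem_cons_zero] at this
      rw [this]
    · intro j hj
      have := h (j + 1) (by simpa using hj)
      simp only [List.getElem_cons_succ] at this
      rw [← this]
      congr 1
      omega

variable [DecidableEq α]

theorem isReduced_of_norm {L : List (α × Bool)} (h : L.length ≤ (FreeGroup.mk L).norm) :
    FreeGroup.IsReduced L := by
  rw [FreeGroup.isReduced_iff_reduce_eq]
  have h1 : FreeGroup.Red L (FreeGroup.reduce L) := FreeGroup.reduce.red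
  have h2 : (FreeGroup.mk L).norm = (FreeGroup.reduce L).length := rfl
  exact h1.sublist.eq_of_length_le (by omega)

theorem mk_ne_one_of_isReduced {M : List (α × Bool)} (h : FreeGroup.IsReduced M) (hM : M ≠ []) :
    FreeGroup.mk M ≠ 1 := by
  intro h1
  have h2 : (FreeGroup.mk M).norm = 0 := by rw [h1, FreeGroup.norm_one]
  have h3 : (FreeGroup.mk M).norm = (FreeGroup.reduce M).length := rfl
  rw [FreeGroup.isReduced_iff_reduce_eq.1 h] at h3
  exact hM (List.length_eq_zero_iff.1 (by omega))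

variable (N : Subgroup (FreeGroup α)) [N.Normal]

theorem exists_opposite {ℓ : ℕ → α × Bool} {v : ℕ → FreeGroup α ⧸ N} {n : ℕ} (hn : 0 < n)
    (hv : ∀ i, v (i + 1) = v i * lt (QuotientGroup.mk' N) (ℓ i))
    (hW : ∀ i, FreeGroup.mk (seg ℓ i n) ∈ ⁅N, N⁆) (i : ℕ) :
    ∃ j, E (QuotientGroup.mk' N) (v j) (ℓ j) = E (QuotientGroup.mk' N) (v i) (ℓ i) ∧
      (ℓ j).2 ≠ (ℓ i).2 := by
  obtain ⟨k, rfl⟩ : ∃ k, n = k + 1 := ⟨n - 1, by omega⟩
  obtain ⟨⟨x, b⟩, hx⟩ : ∃ a, ℓ i = a := ⟨_, rfl⟩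
  have hc := cnt_commutator N x _ (hW i)
  rw [seg, hx] at hc
  have fin : ∀ (L₁ L₂ : List (α × Bool)), seg ℓ (i + 1) k = L₁ ++ (x, !b) :: L₂ →
      ((FreeGroup.mk L₁ : FreeGroup α) : FreeGroup α ⧸ N) = 1 →
      ∃ j, E (QuotientGroup.mk' N) (v j) (ℓ j) = E (QuotientGroup.mk' N) (v i) (ℓ i) ∧
        (ℓ j).2 ≠ (ℓ i).2 := by
    intro L₁ L₂ h1 h2
    obtain ⟨h3, h4⟩ := seg_split ℓ _ _ L₁ k (i + 1) h1
    have h5 := prod_seg hv L₁.length (i + 1)
    rw [← h4, QuotientGroup.mk'_apply, h2, mul_one, hv] at h5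
    refine ⟨i + 1 + L₁.length, ?_, ?_⟩
    · rw [h5, h3, ← E_ilet (v i) (ℓ i), hx]
      rfl
    · rw [h3, hx]
      simp
  cases b with
  | true =>
    have h1 := hc 1
    rw [mk_cons, cnt_mul, mk_true, cnt_of, if_pos ⟨rfl, rfl⟩, mul_one] at h1
    obtain ⟨L₁, L₂, h2, h3⟩ := find_neg N x (seg ℓ (i + 1) k) _
      (by omega : cnt N x (FreeGroup.mk (seg ℓ (i + 1) k))
        (((FreeGroup.of x : FreeGroup α) : FreeGroup α ⧸ N)⁻¹) < 0)
    rw [mul_eq_right] at h3
    exact fin L₁ L₂ h2 h3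
  | false =>
    have h1 := hc (((FreeGroup.of x : FreeGroup α) : FreeGroup α ⧸ N)⁻¹)
    rw [mk_cons, cnt_mul, mk_false, cnt_inv, if_pos ⟨rfl, mul_inv_cancel _⟩,
      QuotientGroup.mk_inv, inv_inv, mul_inv_cancel] at h1
    obtain ⟨L₁, L₂, h2, h3⟩ := find_pos N x (seg ℓ (i + 1) k) _
      (by omega : 0 < cnt N x (FreeGroup.mk (seg ℓ (i + 1) k)) 1)
    exact fin L₁ L₂ h2 h3

/-- If the nontrivial elements of `N` have length at least `g`, those of its commutator subgroup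
have length at least `3 * g`. -/
theorem three_mul (g : ℕ) (hg : ∀ w ∈ N, w ≠ 1 → g ≤ w.norm) :
    ∀ w ∈ ⁅N, N⁆, w ≠ 1 → 3 * g ≤ w.norm := by
  classical
  intro w₀ hw₀ hw₀1
  have hex : ∃ n, ∃ w ∈ ⁅N, N⁆, w ≠ 1 ∧ w.norm = n := ⟨_, w₀, hw₀, hw₀1, rfl⟩
  obtain ⟨w, hw, hw1, hnw⟩ := Nat.find_spec hex
  have hmin : ∀ v ∈ ⁅N, N⁆, v ≠ 1 → w.norm ≤ v.norm := fun v hv hv1 => by
    rw [hnw]
    exact Nat.find_min' hex ⟨v, hv, hv1, rfl⟩
  refine le_trans ?_ (hmin w₀ hw₀ hw₀1)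
  clear hnw hex hw₀1 hw₀ w₀
  obtain ⟨L, hL⟩ : ∃ L, L = w.toWord := ⟨_, rfl⟩
  obtain ⟨n, hnL⟩ : ∃ n, n = L.length := ⟨_, rfl⟩
  have hnorm : w.norm = n := by
    rw [hnL, hL]
    rfl
  have hn : 0 < n := by
    rcases Nat.eq_zero_or_pos n with h | h
    · rw [h] at hnorm
      exact absurd (FreeGroup.norm_eq_zero.1 hnorm) hw1
    · exact h
  let ℓ : ℕ → α × Bool := fun i => L[i % n]'(hnL ▸ Nat.mod_lt _ hn)
  have hℓ : Function.Periodic ℓ n := fun i => by simp [ℓ]
  have hseg0 : seg ℓ 0 n = L := by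
    rw [hnL]
    refine seg_eq_of_get L ℓ L 0 fun j hj => ?_
    simp only [ℓ, zero_add]
    congr 1
    exact Nat.mod_eq_of_lt (hnL ▸ hj)
  have hWc : ∀ i, FreeGroup.mk (seg ℓ i n) ∈ ⁅N, N⁆ ∧ FreeGroup.mk (seg ℓ i n) ≠ 1 := by
    intro i
    induction i with
    | zero =>
      rw [hseg0, hL, FreeGroup.mk_toWord]
      exact ⟨hw, hw1⟩
    | succ i ih =>
      have h1 : FreeGroup.mk [ℓ i] * FreeGroup.mk (seg ℓ (i + 1) n) =
          FreeGroup.mk (seg ℓ i n) * FreeGroup.mk [ℓ i] := by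
        rw [FreeGroup.mul_mk, FreeGroup.mul_mk]
        have h2 : [ℓ i] ++ seg ℓ (i + 1) n = seg ℓ i (n + 1) := rfl
        rw [h2, seg_snoc, hℓ i]
      have h3 : FreeGroup.mk (seg ℓ (i + 1) n) =
          (FreeGroup.mk [ℓ i])⁻¹ * FreeGroup.mk (seg ℓ i n) * (FreeGroup.mk [ℓ i])⁻¹⁻¹ := by
        rw [inv_inv, mul_assoc, ← h1, inv_mul_cancel_left]
      constructor
      · rw [h3]
        exact Subgroup.Normal.conj_mem inferInstance _ ih.1 _
      · rw [h3]
        intro h4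
        exact ih.2 (conj_eq_one_iff.1 h4)
  have hred : ∀ i, FreeGroup.IsReduced (seg ℓ i n) := by
    intro i
    apply isReduced_of_norm
    rw [length_seg]
    have := hmin _ (hWc i).1 (hWc i).2
    omega
  let v : ℕ → FreeGroup α ⧸ N := fun i => QuotientGroup.mk' N (FreeGroup.mk (seg ℓ 0 i))
  have hv : ∀ i, v (i + 1) = v i * lt (QuotientGroup.mk' N) (ℓ i) := by
    intro i
    simp only [v, lt]
    rw [seg_snoc, ← FreeGroup.mul_mk, map_mul, zero_add]
  have hvp : Function.Periodic v n := by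
    intro i
    rw [prod_seg hv n i]
    have : QuotientGroup.mk' N (FreeGroup.mk (seg ℓ i n)) = 1 := by
      rw [QuotientGroup.mk'_apply, QuotientGroup.eq_one_iff]
      exact Subgroup.commutator_le_left N N (hWc i).1
    rw [this, mul_one]
  have hS := exists_opposite N hn hv fun i => (hWc i).1
  have hn2 : 2 ≤ n := by
    by_contra h
    have h1 : n = 1 := by omega
    obtain ⟨j, hj1, hj2⟩ := hS 0
    apply hj2
    have h2 : ℓ j = ℓ 0 := by
      rw [← hℓ.map_mod_nat j, h1, Nat.mod_one]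
    rw [h2]
  have hR : Red ℓ := by
    intro i
    have h1 := hred i
    obtain ⟨k, hk⟩ : ∃ k, n = k + 2 := ⟨n - 2, by omega⟩
    rw [hk] at h1
    exact (List.isChain_cons_cons.1 h1).1
  have hex : ∃ z, 0 < z ∧ ∃ a, v a = v (a + z) := ⟨n, hn, 0, (hvp 0).symm⟩
  obtain ⟨hz, a, ha⟩ := Nat.find_spec hex
  have hzmin : ∀ k, 0 < k → k < Nat.find hex → ∀ i, v i ≠ v (i + k) := by
    intro k h1 h2 i h3
    exact Nat.find_min hex h2 ⟨h1, i, h3⟩
  rw [hnorm]
  refine core (φ := QuotientGroup.mk' N) (ℓ := fun i => ℓ (a + i)) (v := fun i => v (a + i))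
    (z := Nat.find hex) hn (fun i => hv (a + i)) (fun i => ?_) (fun i => ?_) (fun i => hR (a + i))
    ?_ ?_ ?_ hz ?_
  · simp only
    rw [← add_assoc]
    exact hℓ _
  · simp only
    rw [← add_assoc]
    exact hvp _
  · intro M h1 h2 h3
    rw [QuotientGroup.mk'_apply, QuotientGroup.eq_one_iff] at h3
    exact (hg _ h3 (mk_ne_one_of_isReduced h1 h2)).trans FreeGroup.norm_mk_le
  · intro i
    obtain ⟨j, hj⟩ := hS (a + i)
    refine ⟨j + a * n - a, ?_⟩
    have h1 : a * 1 ≤ a * n := Nat.mul_le_mul_left a hn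
    have h2 : a + (j + a * n - a) = j + a * n := by omega
    have p1 : ℓ (j + a * n) = ℓ j := by
      have := hℓ.nat_mul a j
      simpa using this
    have p2 : v (j + a * n) = v j := by
      have := hvp.nat_mul a j
      simpa using this
    simp only [h2, p1, p2]
    exact hj
  · simpa using ha.symm
  · intro k h1 h2 i
    have := hzmin k h1 h2 (a + i)
    rwa [add_assoc] at this

/-- Nontrivial elements of the derived subgroup number `d + 1` of a free group have length at least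
`4 * 3 ^ d`. -/
theorem norm_of_mem_derived_succ (w : FreeGroup α) (hw : w ≠ 1) (d : ℕ)
    (h : w ∈ derivedSeries (FreeGroup α) (d + 1)) : 4 * 3 ^ d ≤ w.norm := by
  have key : ∀ d : ℕ, ∀ w ∈ derivedSeries (FreeGroup α) (d + 1), w ≠ 1 → 4 * 3 ^ d ≤ w.norm := by
    intro d
    induction d with
    | zero =>
      intro w hwd hw
      have := H891.norm_of_mem_derived w hw 1 hwd
      omega
    | succ d ih =>
      intro w hwd hw
      rw [derivedSeries_succ] at hwd
      have := three_mul (derivedSeries (FreeGroup α) (d + 1)) _ ih w hwd hw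
      rw [pow_succ]
      omega
  exact key d w h hw

end Vale.Agent.P215.H743.Girth
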