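import Vale.Agent.P215.R2.H743.Gap
import Vale.Agent.P215.R2.H604.Length
import Vale.Agent.P215.R2.H743.Girth2

/-!
# P215: the gap theorem for the complexity of the discs, main statements
-/

noncomputable section

namespace Vale.Agent.P215.H743

open Vale.Agent.P215.H788

variable {X : Type} [DecidableEq X]

/-- The double point loops of the disc `D` are mapped to the normal subgroup `N` by `ψ`. -/
def MapsInto {G : CappedGrope} {X : Type} (D : GDisc G) (ψ : Pi1 G →* FreeGroup X)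
    (N : Subgroup (FreeGroup X)) : Prop :=
  ∀ (k : Fin D.n) (c : Path G.basePt (D.map (D.fst k))) (l : Path (D.fst k) (D.snd k)),
    ψ (loopClass D k c l) ∈ N

/-- The double point loops of the disc `D` are killed by all compositions of `ψ` with homomorphisms
from the free group to the symmetric group of degree `n`. -/
def KillsPerm {G : CappedGrope} {X : Type} (D : GDisc G) (ψ : Pi1 G →* FreeGroup X)
    (n : ℕ) : Prop :=
  ∀ α : FreeGroup X →* Equiv.Perm (Fin n), D.Kills (α.comp ψ)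

/-- The image of one of the double point loops in the free group has cyclic length at least `n`: all
its conjugates have word length at least `n`. -/
def HasLongLoop {G : CappedGrope} {X : Type} [DecidableEq X] (D : GDisc G)
    (ψ : Pi1 G →* FreeGroup X) (n : ℕ) : Prop :=
  ∃ (k : Fin D.n) (c : Path G.basePt (D.map (D.fst k))) (l : Path (D.fst k) (D.snd k)),
    ∀ g : FreeGroup X, n ≤ (g * ψ (loopClass D k c l) * g⁻¹).norm

theorem hasLongLoop_iff {G : CappedGrope} (D : GDisc G) (ψ : Pi1 G →* FreeGroup X) (n : ℕ) :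
    HasLongLoop D ψ n ↔ ¬ Short D ψ n := by
  simp only [HasLongLoop, Short, not_forall, not_exists, not_lt]

theorem mapsInto_iff {G : CappedGrope} (D : GDisc G) (ψ : Pi1 G →* FreeGroup X)
    (N : Subgroup (FreeGroup X)) [N.Normal] :
    MapsInto D ψ N ↔ D.Kills ((QuotientGroup.mk' N).comp ψ) := by
  refine forall_congr' fun k => forall_congr' fun c => forall_congr' fun l => ?_
  rw [MonoidHom.comp_apply, QuotientGroup.mk'_apply, QuotientGroup.eq_one_iff]
  exact Iff.rfl

theorem mapsInto_of_kills {G : CappedGrope} (D : GDisc G) (ψ : Pi1 G →* FreeGroup X)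
    (N : Subgroup (FreeGroup X)) (h : D.Kills ψ) : MapsInto D ψ N := by
  intro k c l
  have h1 : ψ (loopClass D k c l) = 1 := h k c l
  rw [h1]
  exact one_mem N

/-- **The gap theorem.** -/
theorem gap {G : CappedGrope} (ψ : Pi1 G →* FreeGroup X) (D : GDisc G) :
    (∀ d, MapsInto D ψ (derivedSeries (FreeGroup X) (d + 1)) →
      D.Kills ψ ∨ HasLongLoop D ψ (4 * 3 ^ d)) ∧
    (∀ n, MapsInto D ψ ((⊤ : Subgroup (FreeGroup X)).lowerCentralSeries n) →
      D.Kills ψ ∨ HasLongLoop D ψ (n + 1)) ∧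
    (∀ n, KillsPerm D ψ n → D.Kills ψ ∨ HasLongLoop D ψ n) := by
  refine ⟨fun d h1 => ?_, fun n h1 => ?_, fun n h1 => ?_⟩
  · by_cases h2 : Short D ψ (4 * 3 ^ d)
    · refine Or.inl (kills_of_short D ψ _ h2 _ (fun w hw hlt => ?_) ((mapsInto_iff D ψ _).1 h1))
      by_contra hne
      have := Girth.norm_of_mem_derived_succ w hne d hw
      omega
    · exact Or.inr ((hasLongLoop_iff D ψ _).2 h2)
  · by_cases h2 : Short D ψ (n + 1)
    · refine Or.inl (kills_of_short D ψ _ h2 _ (fun w hw hlt => ?_) ((mapsInto_iff D ψ _).1 h1))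
      by_contra hne
      have := H604.norm_of_mem_lcs w hne n hw
      omega
    · exact Or.inr ((hasLongLoop_iff D ψ _).2 h2)
  · by_cases h2 : Short D ψ n
    · exact Or.inl (kills_of_short_perm D ψ n h2 h1)
    · exact Or.inr ((hasLongLoop_iff D ψ _).2 h2)

theorem good_tfae (X : Type) [DecidableEq X] :
    [Good (FreeGroup X),
      ∀ (G : CappedGrope) (ψ : Pi1 G →* FreeGroup X), ∃ (d : ℕ) (D : GDisc G),
        MapsInto D ψ (derivedSeries (FreeGroup X) (d + 1)) ∧ ¬ HasLongLoop D ψ (4 * 3 ^ d),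
      ∀ (G : CappedGrope) (ψ : Pi1 G →* FreeGroup X), ∃ (n : ℕ) (D : GDisc G),
        MapsInto D ψ ((⊤ : Subgroup (FreeGroup X)).lowerCentralSeries n) ∧
          ¬ HasLongLoop D ψ (n + 1),
      ∀ (G : CappedGrope) (ψ : Pi1 G →* FreeGroup X), ∃ (n : ℕ) (D : GDisc G),
        KillsPerm D ψ n ∧ ¬ HasLongLoop D ψ n].TFAE := by
  have short : ∀ {G : CappedGrope} (D : GDisc G) (ψ : Pi1 G →* FreeGroup X) (n : ℕ), 0 < n →
      D.Kills ψ → ¬ HasLongLoop D ψ n := fun D ψ n hn hD h =>
    (hasLongLoop_iff D ψ n).1 h (short_of_kills D ψ n hn hD)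
  tfae_have 1 → 2 := fun h G ψ => by
    obtain ⟨D, hD⟩ := h G ψ
    exact ⟨0, D, mapsInto_of_kills D ψ _ hD, short D ψ _ (by simp) hD⟩
  tfae_have 1 → 3 := fun h G ψ => by
    obtain ⟨D, hD⟩ := h G ψ
    exact ⟨0, D, mapsInto_of_kills D ψ _ hD, short D ψ _ (by simp) hD⟩
  tfae_have 1 → 4 := fun h G ψ => by
    obtain ⟨D, hD⟩ := h G ψ
    exact ⟨1, D, fun α => kills_comp D ψ α hD, short D ψ _ (by simp) hD⟩
  tfae_have 2 → 1 := fun h G ψ => by
    obtain ⟨d, D, h1, h2⟩ := h G ψ
    exact ⟨D, ((gap ψ D).1 d h1).resolve_right h2⟩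
  tfae_have 3 → 1 := fun h G ψ => by
    obtain ⟨d, D, h1, h2⟩ := h G ψ
    exact ⟨D, ((gap ψ D).2.1 d h1).resolve_right h2⟩
  tfae_have 4 → 1 := fun h G ψ => by
    obtain ⟨d, D, h1, h2⟩ := h G ψ
    exact ⟨D, ((gap ψ D).2.2 d h1).resolve_right h2⟩
  tfae_finish

end Vale.Agent.P215.H743
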