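import Mathlib

/-!
# P215: commutators of long elements of a normal subgroup of a free group are three times as long
-/

noncomputable section

namespace Vale.Agent.P215.H743.Girth

variable {α : Type} {V : Type} [Group V]

/-- The inverse letter. -/
def ilet (a : α × Bool) : α × Bool := (a.1, !a.2)

/-- The image of a letter. -/
def lt (φ : FreeGroup α →* V) (a : α × Bool) : V := φ (FreeGroup.mk [a])

theorem mk_pair (x : α) (b : Bool) : FreeGroup.mk [(x, !b)] = (FreeGroup.mk [(x, b)])⁻¹ := by
  rw [FreeGroup.inv_mk]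
  rfl

theorem lt_ilet (φ : FreeGroup α →* V) (a : α × Bool) : lt φ (ilet a) = (lt φ a)⁻¹ := by
  unfold lt ilet
  rw [mk_pair, map_inv]

theorem ilet_of {a b : α × Bool} (h1 : a.1 = b.1) (h2 : a.2 ≠ b.2) : b = ilet a := by
  obtain ⟨x, s⟩ := a
  obtain ⟨y, t⟩ := b
  simp only at h1 h2
  subst h1
  cases s <;> cases t <;> simp_all [ilet]

/-- The undirected edge of a letter which is read at the vertex `c`. -/
def E (φ : FreeGroup α →* V) (c : V) (a : α × Bool) : V × α :=
  (if a.2 then c else c * lt φ a, a.1)

variable {φ : FreeGroup α →* V}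

theorem E_same {c c' : V} {a a' : α × Bool} (h : E φ c a = E φ c' a') (hs : a.2 = a'.2) :
    c = c' ∧ a = a' := by
  obtain ⟨x, s⟩ := a
  obtain ⟨y, t⟩ := a'
  simp only at hs
  subst hs
  simp only [E, Prod.mk.injEq] at h
  obtain ⟨h1, rfl⟩ := h
  refine ⟨?_, rfl⟩
  cases s
  · simpa using h1
  · simpa using h1

theorem E_opp {c c' : V} {a a' : α × Bool} (h : E φ c a = E φ c' a') (hs : a.2 ≠ a'.2) :
    a' = ilet a ∧ c' = c * lt φ a ∧ c = c' * lt φ a' := by
  have h1 : a.1 = a'.1 := (Prod.ext_iff.1 h).2
  have h2 := ilet_of h1 hs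
  have h3 : c' = c * lt φ a := by
    have h4 := (Prod.ext_iff.1 h).1
    subst h2
    obtain ⟨x, s⟩ := a
    cases s
    · simpa [E, ilet] using h4.symm
    · simp only [E, ilet, if_true, Bool.not_true, Bool.false_eq_true, if_false] at h4
      have h5 := lt_ilet φ (x, true)
      simp only [ilet, Bool.not_true] at h5
      rw [h4, h5]
      group
  refine ⟨h2, h3, ?_⟩
  rw [h2, lt_ilet, h3]
  group

theorem E_ilet (c : V) (a : α × Bool) : E φ (c * lt φ a) (ilet a) = E φ c a := by
  obtain ⟨x, s⟩ := a
  have h := lt_ilet φ (x, s)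
  cases s
  · simp [E, ilet]
  · simp only [E, ilet, Bool.not_true, Bool.false_eq_true, if_false, if_true] at h ⊢
    rw [h]
    simp

/-- The segment of length `k` at the position `i`. -/
def seg (ℓ : ℕ → α × Bool) : ℕ → ℕ → List (α × Bool)
  | _, 0 => []
  | i, k + 1 => ℓ i :: seg ℓ (i + 1) k

theorem length_seg (ℓ : ℕ → α × Bool) : ∀ k i, (seg ℓ i k).length = k
  | 0, _ => rfl
  | k + 1, i => by simp [seg, length_seg ℓ k (i + 1)]

theorem head?_seg (ℓ : ℕ → α × Bool) (i k : ℕ) (hk : 0 < k) : (seg ℓ i k).head? = some (ℓ i) := by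
  cases k with
  | zero => omega
  | succ k => rfl

theorem getLast?_seg (ℓ : ℕ → α × Bool) : ∀ (k i : ℕ),
    (seg ℓ i (k + 1)).getLast? = some (ℓ (i + k))
  | 0, i => rfl
  | k + 1, i => by
    have := getLast?_seg ℓ k (i + 1)
    rw [seg, List.getLast?_cons, this]
    simp only [Option.getD_some]
    congr 2
    omega

theorem prod_seg {ℓ : ℕ → α × Bool} {v : ℕ → V} (hv : ∀ i, v (i + 1) = v i * lt φ (ℓ i)) :
    ∀ k i, v (i + k) = v i * φ (FreeGroup.mk (seg ℓ i k))
  | 0, i => by
    rw [seg, show FreeGroup.mk ([] : List (α × Bool)) = 1 from rfl, map_one, mul_one, add_zero]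
  | k + 1, i => by
    have h := prod_seg hv k (i + 1)
    have h1 : FreeGroup.mk (seg ℓ i (k + 1)) = FreeGroup.mk [ℓ i] *
        FreeGroup.mk (seg ℓ (i + 1) k) := by
      rw [FreeGroup.mul_mk]
      rfl
    rw [h1, map_mul, ← mul_assoc, show i + (k + 1) = i + 1 + k by omega, h, hv i]
    rfl

/-- reduced at every position -/
def Red (ℓ : ℕ → α × Bool) : Prop := ∀ i, (ℓ i).1 = (ℓ (i + 1)).1 → (ℓ i).2 = (ℓ (i + 1)).2

theorem isReduced_seg {ℓ : ℕ → α × Bool} (hR : Red ℓ) : ∀ k i, FreeGroup.IsReduced (seg ℓ i k)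
  | 0, _ => List.isChain_nil
  | 1, _ => List.isChain_singleton _
  | k + 2, i => List.isChain_cons_cons.2 ⟨hR i, isReduced_seg hR (k + 1) (i + 1)⟩

theorem isReduced_invRev {L : List (α × Bool)} (h : FreeGroup.IsReduced L) :
    FreeGroup.IsReduced (FreeGroup.invRev L) := by
  unfold FreeGroup.IsReduced FreeGroup.invRev at *
  rw [List.isChain_reverse, List.isChain_map]
  refine h.imp fun a b hab h1 => ?_
  simp only at h1 ⊢
  rw [hab h1.symm]

theorem head?_invRev_seg (ℓ : ℕ → α × Bool) (i k : ℕ) :
    (FreeGroup.invRev (seg ℓ i (k + 1))).head? = some (ilet (ℓ (i + k))) := by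
  unfold FreeGroup.invRev
  rw [List.head?_reverse, List.getLast?_map, getLast?_seg]
  rfl

theorem isReduced_append {L M : List (α × Bool)} (hL : FreeGroup.IsReduced L)
    (hM : FreeGroup.IsReduced M) {a b : α × Bool} (ha : L.getLast? = some a)
    (hb : M.head? = some b) (hab : a.1 = b.1 → a.2 = b.2) : FreeGroup.IsReduced (L ++ M) := by
  refine List.isChain_append.2 ⟨hL, hM, ?_⟩
  intro x hx y hy
  rw [ha, Option.mem_some] at hx
  rw [hb, Option.mem_some] at hy
  rw [← hx, ← hy]
  exact hab

/-- The core: the shortest closed segment starts at the position `0` and has the length `z`. -/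
theorem core {ℓ : ℕ → α × Bool} {v : ℕ → V} {g n z : ℕ} (hn : 0 < n)
    (hv : ∀ i, v (i + 1) = v i * lt φ (ℓ i)) (hℓ : Function.Periodic ℓ n)
    (hvp : Function.Periodic v n) (hR : Red ℓ)
    (hC : ∀ M : List (α × Bool), FreeGroup.IsReduced M → M ≠ [] → φ (FreeGroup.mk M) = 1 →
      g ≤ M.length)
    (hS : ∀ i, ∃ j, E φ (v j) (ℓ j) = E φ (v i) (ℓ i) ∧ (ℓ j).2 ≠ (ℓ i).2)
    (h0 : v z = v 0) (hz : 0 < z) (hmin : ∀ k, 0 < k → k < z → ∀ i, v i ≠ v (i + k)) :
    3 * g ≤ n := by
  classical
  -- closed segments are long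
  have hseg : ∀ i k, 0 < k → v i = v (i + k) → g ≤ k := by
    intro i k hk h
    have h1 := hC (seg ℓ i k) (isReduced_seg hR k i) (by
      intro h2
      have := length_seg ℓ k i
      rw [h2, List.length_nil] at this
      omega) (by
      have := prod_seg hv k i
      rw [← h] at this
      exact (mul_eq_left.1 this.symm))
    rwa [length_seg] at h1
  have hgz : g ≤ z := hseg 0 z hz (by rw [zero_add, h0])
  have hinj : ∀ i j, i < j → j < i + z → v i ≠ v j := by
    intro i j h1 h2 h3
    refine hmin (j - i) (by omega) (by omega) i ?_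
    rw [h3]
    congr 1
    omega
  -- a letter and its inverse are not adjacent
  have hadj : ∀ i, ℓ (i + 1) ≠ ilet (ℓ i) := by
    intro i h
    have h1 := hR i (by rw [h]; rfl)
    rw [h] at h1
    simp [ilet] at h1
  have hself : ∀ a : α × Bool, a ≠ ilet a := by
    intro a h
    have := congrArg Prod.snd h
    simp [ilet] at this
  -- the first position off the cycle
  have hext : ∃ t, z ≤ t ∧ ¬ ∃ m, m < z ∧ ℓ t = ℓ m ∧ v t = v m := by
    obtain ⟨j, hj, hs⟩ := hS 0
    have p1 : ℓ (j + z * n) = ℓ j := by
      have := hℓ.nat_mul z j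
      simpa using this
    have p2 : v (j + z * n) = v j := by
      have := hvp.nat_mul z j
      simpa using this
    refine ⟨j + z * n, ?_, ?_⟩
    · have : z * 1 ≤ z * n := Nat.mul_le_mul_left z hn
      omega
    · rintro ⟨m, hm, h1, h2⟩
      rw [p1] at h1
      rw [p2] at h2
      rw [h1, h2] at hj
      rw [h1] at hs
      obtain ⟨e1, e2, e3⟩ := E_opp hj.symm (Ne.symm hs)
      rw [← hv 0, zero_add] at e2
      rcases Nat.lt_trichotomy m 1 with h | h | h
      · have : m = 0 := by omega
        subst this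
        exact hself _ e1
      · subst h
        exact hadj 0 e1
      · exact hinj 1 m h (by omega) e2.symm
  obtain ⟨t, ⟨htz, htn⟩, htmin⟩ : ∃ t, (z ≤ t ∧ ¬ ∃ m, m < z ∧ ℓ t = ℓ m ∧ v t = v m) ∧
      ∀ s < t, ∃ m, m < z ∧ ℓ s = ℓ m ∧ v s = v m := by
    refine ⟨Nat.find hext, Nat.find_spec hext, fun s hs => ?_⟩
    by_cases hsz : s < z
    · exact ⟨s, hsz, rfl, rfl⟩
    · have := Nat.find_min hext hs
      by_contra hcon
      exact this ⟨by omega, hcon⟩
  obtain ⟨m0, hm0, hl0, hv0⟩ := htmin (t - 1) (by omega)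
  have hvt : v t = v (m0 + 1) := by
    have : t = (t - 1) + 1 := by omega
    rw [this, hv, hl0, hv0, ← hv]
  obtain ⟨k, hk, hvk⟩ : ∃ k, k < z ∧ v t = v k := by
    by_cases h : m0 + 1 < z
    · exact ⟨m0 + 1, h, hvt⟩
    · have : m0 + 1 = z := by omega
      rw [this, h0] at hvt
      exact ⟨0, hz, hvt⟩
  have hnext : ∀ m, m < z → ∃ m', m' < z ∧ v (m + 1) = v m' := by
    intro m hm
    by_cases h : m + 1 < z
    · exact ⟨m + 1, h, rfl⟩
    · have : m + 1 = z := by omega
      rw [this, h0]
      exact ⟨0, hz, rfl⟩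
  -- the edge at `t` is not in the cycle
  have het : ∀ m, m < z → E φ (v t) (ℓ t) ≠ E φ (v m) (ℓ m) := by
    intro m hm h
    by_cases hs : (ℓ t).2 = (ℓ m).2
    · obtain ⟨h1, h2⟩ := E_same h hs
      exact htn ⟨m, hm, h2, h1⟩
    · obtain ⟨e1, e2, e3⟩ := E_opp h hs
      rw [← hv m, hvt] at e3
      have hmm : m = m0 := by
        rcases Nat.lt_trichotomy m m0 with h' | h' | h'
        · exact absurd e3.symm (hinj (m + 1) (m0 + 1) (by omega) (by omega))
        · exact h'
        · exact absurd e3 (hinj (m0 + 1) (m + 1) (by omega) (by omega))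
      subst hmm
      have h2 := hadj (t - 1)
      rw [show t - 1 + 1 = t by omega, hl0] at h2
      apply h2
      rw [e1]
      simp [ilet]
  -- the ear
  have hexs : ∃ s, 0 < s ∧ ((∃ m, m < z ∧ v (t + s) = v m) ∨
      ∃ r, 0 < r ∧ r < s ∧ v (t + s) = v (t + r)) :=
    ⟨n, hn, Or.inl ⟨k, hk, by rw [hvp t, hvk]⟩⟩
  obtain ⟨s, ⟨hs0, hs⟩, hsmin⟩ : ∃ s, (0 < s ∧ ((∃ m, m < z ∧ v (t + s) = v m) ∨
      ∃ r, 0 < r ∧ r < s ∧ v (t + s) = v (t + r))) ∧ ∀ r, 0 < r → r < s →
      (∀ m, m < z → v (t + r) ≠ v m) ∧ ∀ r', 0 < r' → r' < r → v (t + r) ≠ v (t + r') := by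
    refine ⟨Nat.find hexs, Nat.find_spec hexs, fun r h1 h2 => ?_⟩
    have := Nat.find_min hexs h2
    push Not at this
    exact this h1
  have hSZ : ∀ r, r < s → ∀ m, m < z → E φ (v (t + r)) (ℓ (t + r)) ≠ E φ (v m) (ℓ m) := by
    intro r hr m hm h
    rcases Nat.eq_zero_or_pos r with rfl | hr0
    · exact het m hm h
    · by_cases hs' : (ℓ (t + r)).2 = (ℓ m).2
      · exact (hsmin r hr0 hr).1 m hm (E_same h hs').1
      · obtain ⟨e1, e2, e3⟩ := E_opp h hs'
        rw [← hv m] at e3
        obtain ⟨m', hm', h'⟩ := hnext m hm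
        exact (hsmin r hr0 hr).1 m' hm' (e3.trans h')
  have hSS : ∀ r r', r < r' → r' < s →
      E φ (v (t + r)) (ℓ (t + r)) ≠ E φ (v (t + r')) (ℓ (t + r')) := by
    intro r r' h1 h2 h
    have h3 := hsmin r' (by omega) h2
    by_cases hs' : (ℓ (t + r)).2 = (ℓ (t + r')).2
    · have h4 := (E_same h hs').1
      rcases Nat.eq_zero_or_pos r with rfl | hr0
      · exact h3.1 k hk (h4.symm.trans hvk)
      · exact h3.2 r hr0 h1 h4.symm
    · obtain ⟨e1, e2, e3⟩ := E_opp h hs'
      rw [← hv (t + r)] at e2
      rcases Nat.lt_or_ge (r + 1) r' with h5 | h5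
      · exact h3.2 (r + 1) (by omega) h5 e2
      · have : r' = r + 1 := by omega
        subst this
        exact hadj (t + r) e1
  have hZZ : ∀ i j, i < j → j < z → E φ (v i) (ℓ i) ≠ E φ (v j) (ℓ j) := by
    intro i j h1 h2 h
    by_cases hs' : (ℓ i).2 = (ℓ j).2
    · exact hinj i j h1 (by omega) (E_same h hs').1
    · obtain ⟨e1, e2, e3⟩ := E_opp h hs'
      rw [← hv i] at e2
      rcases Nat.lt_or_ge (i + 1) j with h5 | h5
      · exact hinj (i + 1) j h5 (by omega) e2.symm
      · have : j = i + 1 := by omega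
        subst this
        exact hadj i e1
  -- counting
  have hcount : 2 * (z + s) ≤ n := by
    let e : ℕ → V × α := fun i => E φ (v i) (ℓ i)
    have hep : ∀ i, e (i % n) = e i := by
      intro i
      simp only [e]
      rw [hℓ.map_mod_nat, hvp.map_mod_nat]
    have h1 : 2 * ((Finset.range n).image e).card ≤ (Finset.range n).card := by
      refine Finset.mul_card_image_le_card _ 2 ?_
      intro x hx
      obtain ⟨i, hi, rfl⟩ := Finset.mem_image.1 hx
      obtain ⟨j, hj1, hj2⟩ := hS i
      have hne : i ≠ j % n := by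
        intro h
        apply hj2
        rw [h, hℓ.map_mod_nat]
      rw [← Finset.card_pair hne]
      refine Finset.card_le_card ?_
      intro y hy
      rw [Finset.mem_insert, Finset.mem_singleton] at hy
      rcases hy with rfl | rfl
      · exact Finset.mem_filter.2 ⟨hi, rfl⟩
      · refine Finset.mem_filter.2 ⟨Finset.mem_range.2 (Nat.mod_lt _ hn), ?_⟩
        rw [hep]
        exact hj1
    have h2 : z + s ≤ ((Finset.range n).image e).card := by
      rw [← Finset.card_range (z + s)]
      refine Finset.card_le_card_of_injOn (fun i => if i < z then e i else e (t + (i - z))) ?_ ?_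
      · intro i _
        have hmem : ∀ j, e j ∈ (Finset.range n).image e := fun j => by
          rw [← hep j]
          exact Finset.mem_image_of_mem e (Finset.mem_range.2 (Nat.mod_lt _ hn))
        simp only
        split_ifs
        · exact hmem _
        · exact hmem _
      · have key : ∀ i j, i < j → j < z + s →
            (if i < z then e i else e (t + (i - z))) ≠ (if j < z then e j else e (t + (j - z))) := by
          intro i j hij hj
          by_cases hiz : i < z
          · by_cases hjz : j < z
            · rw [if_pos hiz, if_pos hjz]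
              exact hZZ i j hij hjz
            · rw [if_pos hiz, if_neg hjz]
              exact (hSZ (j - z) (by omega) i hiz).symm
          · rw [if_neg hiz, if_neg (by omega)]
            exact hSS (i - z) (j - z) (by omega) (by omega)
        intro i hi j hj h
        have hi' : i < z + s := Finset.mem_range.1 (by simpa using hi)
        have hj' : j < z + s := Finset.mem_range.1 (by simpa using hj)
        rcases Nat.lt_trichotomy i j with h' | h' | h'
        · exact absurd h (key i j h' hj')
        · exact h'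
        · exact absurd h.symm (key j i h' hi')
    rw [Finset.card_range] at h1
    omega
  -- the cases
  rcases hs with ⟨m, hm, hvm⟩ | ⟨r, hr0, hrs, hvr⟩
  · by_cases hmk : m = k
    · subst hmk
      have := hseg t s hs0 (by rw [hvk, hvm])
      omega
    · -- the periodic cycle
      have hmod : ∀ i, (i + 1) % z = if i % z + 1 < z then i % z + 1 else 0 := by
        intro i
        have h1 : i + 1 = i % z + 1 + z * (i / z) := by
          have := Nat.mod_add_div i z
          omega
        have h2 : i % z < z := Nat.mod_lt _ hz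
        have h3 : (i + 1) % z = (i % z + 1) % z := by
          conv_lhs => rw [h1]
          exact Nat.add_mul_mod_self_left _ _ _
        rw [h3]
        split_ifs with h
        · exact Nat.mod_eq_of_lt h
        · rw [show i % z + 1 = z by omega, Nat.mod_self]
      have hu : ∀ i, v ((i + 1) % z) = v (i % z) * lt φ (ℓ (i % z)) := by
        intro i
        rw [← hv, hmod]
        split_ifs with h
        · rfl
        · have h2 : i % z < z := Nat.mod_lt _ hz
          rw [show i % z + 1 = z by omega, h0]
      have hRζ : Red fun i => ℓ (i % z) := by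
        intro i h1
        by_contra h2
        have h3 := ilet_of h1 h2
        simp only [hmod] at h3
        have h4 : i % z < z := Nat.mod_lt _ hz
        split_ifs at h3 with h
        · exact hadj _ h3
        · have h5 := E_ilet (φ := φ) (v (i % z)) (ℓ (i % z))
          rw [← hv, ← h3, show i % z + 1 = z by omega, h0] at h5
          rcases Nat.eq_zero_or_pos (i % z) with h6 | h6
          · rw [h6] at h3
            exact hself _ h3
          · exact hZZ 0 (i % z) h6 h4 h5
      obtain ⟨d, hd0, hdz, hd⟩ : ∃ d, 0 < d ∧ d < z ∧ (k + d) % z = m := by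
        by_cases h : k < m
        · exact ⟨m - k, by omega, by omega, by
            rw [show k + (m - k) = m by omega, Nat.mod_eq_of_lt hm]⟩
        · exact ⟨m + z - k, by omega, by omega, by
            rw [show k + (m + z - k) = m + z by omega, Nat.add_mod_right, Nat.mod_eq_of_lt hm]⟩
      obtain ⟨s', rfl⟩ : ∃ s', s = s' + 1 := ⟨s - 1, by omega⟩
      obtain ⟨d', rfl⟩ : ∃ d', d = d' + 1 := ⟨d - 1, by omega⟩
      have hA := prod_seg hv (s' + 1) t
      rw [hvm, hvk] at hA
      have hB := prod_seg (φ := φ) (ℓ := fun i => ℓ (i % z)) (v := fun i => v (i % z)) hu (d' + 1) k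
      rw [hd, Nat.mod_eq_of_lt hk] at hB
      have hB' := prod_seg (φ := φ) (ℓ := fun i => ℓ (i % z)) (v := fun i => v (i % z)) hu
        (z - (d' + 1)) (k + (d' + 1))
      rw [show k + (d' + 1) + (z - (d' + 1)) = k + z by omega, Nat.add_mod_right,
        Nat.mod_eq_of_lt hk, hd] at hB'
      have hlast := getLast?_seg ℓ s' t
      have hvm' : v (t + s') * lt φ (ℓ (t + s')) = v m := by
        rw [← hv]
        exact hvm
      have g1 := hC (seg ℓ t (s' + 1) ++ FreeGroup.invRev (seg (fun i => ℓ (i % z)) k (d' + 1)))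
        (isReduced_append (isReduced_seg hR _ _) (isReduced_invRev (isReduced_seg hRζ _ _)) hlast
          (head?_invRev_seg _ _ _) (by
          intro h1
          by_contra h2
          have h3 := ilet_of h1 h2
          have h4 : ℓ ((k + d') % z) = ℓ (t + s') := by
            have := congrArg ilet h3
            simpa [ilet] using this
          have h5 := hu (k + d')
          rw [show k + d' + 1 = k + (d' + 1) by omega, hd, h4, ← hvm'] at h5
          have h6 := mul_right_cancel h5
          refine hSZ s' (by omega) ((k + d') % z) (Nat.mod_lt _ hz) ?_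
          rw [h4, h6]))
        (by simp [seg]) (by
          rw [← FreeGroup.mul_mk, ← FreeGroup.inv_mk, map_mul, map_inv, mul_inv_eq_one]
          exact mul_left_cancel (hA.symm.trans hB))
      have g2 := hC (seg ℓ t (s' + 1) ++ seg (fun i => ℓ (i % z)) (k + (d' + 1)) (z - (d' + 1)))
        (isReduced_append (isReduced_seg hR _ _) (isReduced_seg hRζ _ _) hlast
          (head?_seg _ _ _ (by omega)) (by
          simp only [hd]
          intro h1
          by_contra h2
          have h3 := ilet_of h1 h2
          refine hSZ s' (by omega) m hm ?_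
          rw [← hvm', h3, E_ilet]))
        (by simp [seg]) (by
          rw [← FreeGroup.mul_mk, map_mul]
          have h1 : v k * (φ (FreeGroup.mk (seg ℓ t (s' + 1))) *
              φ (FreeGroup.mk (seg (fun i => ℓ (i % z)) (k + (d' + 1)) (z - (d' + 1))))) = v k := by
            rw [← mul_assoc, ← hA, ← hB']
          exact mul_eq_left.1 h1)
      rw [List.length_append, FreeGroup.invRev_length, length_seg, length_seg] at g1
      rw [List.length_append, length_seg, length_seg] at g2
      omega
  · have := hseg (t + r) (s - r) (by omega) (by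
      rw [show t + r + (s - r) = t + s by omega, hvr])
    omega

end Vale.Agent.P215.H743.Girth
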