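import Mathlib

/-!
# P215: the zero-one law for random homomorphisms to finite groups

`exists_universal`: for countably many finitely generated groups `P i` and for prescribed numbers
`ε m > 0` there is one sequence of finite groups `Q m` in a given class such that for every `i` and
every subset `S` of `P i` either all homomorphisms from `P i` to all groups of the class kill `S`,
or the proportion of the homomorphisms `P i → Q m` which kill `S` is at most `ε m` for all large
`m`.
-/

noncomputable section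

namespace Vale.Agent.P215.H743

open Filter Topology

/-- A class of finite groups which contains the trivial group and is closed under isomorphism and
finite products (for instance: the finite `p`-groups, the finite solvable groups, all finite
groups). -/
structure GroupClass (K : (Q : Type) → [Group Q] → Prop) : Prop where
  finite : ∀ (Q : Type) [Group Q], K Q → Finite Q
  unit : K Unit
  iso : ∀ (Q R : Type) [Group Q] [Group R], Q ≃* R → K Q → K R
  prod : ∀ (Q R : Type) [Group Q] [Group R], K Q → K R → K (Q × R)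

theorem finite_hom (P Q : Type) [Group P] [Group Q] (hP : Group.FG P) [Finite Q] :
    Finite (P →* Q) := by
  obtain ⟨S, hS, hfin⟩ := (Group.fg_iff (G := P)).1 hP
  have := hfin.to_subtype
  refine Finite.of_injective (fun (φ : P →* Q) (s : S) => φ s) ?_
  intro φ ψ h
  refine MonoidHom.eq_of_eqOn_dense hS ?_
  intro s hs
  exact congrFun h ⟨s, hs⟩

/-- The homomorphisms to a power. -/
def homPow (P Q : Type) [Group P] [Group Q] (S : Set P) (N : ℕ) :
    {φ : P →* (Fin N → Q) // ∀ w ∈ S, φ w = 1} ≃ (Fin N → {ψ : P →* Q // ∀ w ∈ S, ψ w = 1}) where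
  toFun φ i := ⟨(Pi.evalMonoidHom _ i).comp φ.1, fun w hw => by simp [φ.2 w hw]⟩
  invFun ψ := ⟨MonoidHom.pi fun i => (ψ i).1, fun w hw => by
    funext i
    simp [(ψ i).2 w hw]⟩
  left_inv φ := by
    ext
    simp
  right_inv ψ := by
    funext i
    ext
    simp

theorem card_pow (P Q : Type) [Group P] [Group Q] (S : Set P) (N : ℕ) :
    Nat.card {φ : P →* (Fin N → Q) // ∀ w ∈ S, φ w = 1} =
      Nat.card {ψ : P →* Q // ∀ w ∈ S, ψ w = 1} ^ N := by
  rw [Nat.card_congr (homPow P Q S N), Nat.card_fun, Nat.card_fin]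

theorem card_pow' (P Q : Type) [Group P] [Group Q] (N : ℕ) :
    Nat.card (P →* (Fin N → Q)) = Nat.card (P →* Q) ^ N := by
  have h := card_pow P Q ∅ N
  have h1 : Nat.card {φ : P →* (Fin N → Q) // ∀ w ∈ (∅ : Set P), φ w = 1} =
      Nat.card (P →* (Fin N → Q)) :=
    Nat.card_congr (Equiv.subtypeUnivEquiv (by simp))
  have h2 : Nat.card {φ : P →* Q // ∀ w ∈ (∅ : Set P), φ w = 1} = Nat.card (P →* Q) :=
    Nat.card_congr (Equiv.subtypeUnivEquiv (by simp))
  rw [← h1, ← h2, h]

theorem card_lt (P Q : Type) [Group P] [Group Q] (hP : Group.FG P) [Finite Q] (S : Set P)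
    (φ : P →* Q) (hφ : ¬ ∀ w ∈ S, φ w = 1) :
    Nat.card {ψ : P →* Q // ∀ w ∈ S, ψ w = 1} + 1 ≤ Nat.card (P →* Q) := by
  have := finite_hom P Q hP
  exact Nat.succ_le_of_lt (Finite.card_subtype_lt (x := φ) hφ)

theorem ratio_le (P Q : Type) [Group P] [Group Q] (hP : Group.FG P) [Finite Q] (S : Set P)
    (φ : P →* Q) (hφ : ¬ ∀ w ∈ S, φ w = 1) (N : ℕ) :
    (Nat.card {ψ : P →* (Fin N → Q) // ∀ w ∈ S, ψ w = 1} : ℝ) / Nat.card (P →* (Fin N → Q)) ≤
      (1 - 1 / Nat.card (P →* Q)) ^ N := by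
  have := finite_hom P Q hP
  have h1 := card_lt P Q hP S φ hφ
  have h2 : 0 < Nat.card (P →* Q) := by omega
  have h3 : (0 : ℝ) < Nat.card (P →* Q) := Nat.cast_pos.2 h2
  rw [card_pow, card_pow']
  push_cast
  rw [← div_pow]
  refine pow_le_pow_left₀ (by positivity) ?_ N
  have h4 : ((Nat.card {ψ : P →* Q // ∀ w ∈ S, ψ w = 1} : ℕ) : ℝ) + 1 ≤ Nat.card (P →* Q) := by
    exact_mod_cast h1
  rw [div_le_iff₀ h3, sub_mul, one_div, inv_mul_cancel₀ h3.ne']
  linarith

section Classes

variable {K : (Q : Type) → [Group Q] → Prop}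

theorem GroupClass.of_subsingleton (hK : GroupClass K) (Q : Type) [Group Q] [Subsingleton Q] :
    K Q :=
  hK.iso Unit Q
    { toFun := fun _ => 1
      invFun := fun _ => ()
      left_inv := fun _ => rfl
      right_inv := fun _ => Subsingleton.elim _ _
      map_mul' := fun _ _ => (mul_one 1).symm } hK.unit

/-- Splitting off the first factor. -/
def consEquiv {n : ℕ} (Q : Fin (n + 1) → Type) [∀ i, Group (Q i)] :
    (Q 0 × ∀ i : Fin n, Q i.succ) ≃* ∀ i, Q i where
  toFun x := Fin.cons x.1 x.2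
  invFun f := (f 0, fun i => f i.succ)
  left_inv _ := by simp
  right_inv f := Fin.cons_self_tail f
  map_mul' x y := by
    funext i
    refine Fin.cases ?_ ?_ i
    · simp
    · intro i
      simp

theorem GroupClass.pi (hK : GroupClass K) : ∀ (n : ℕ) (Q : Fin n → Type) [∀ i, Group (Q i)],
    (∀ i, K (Q i)) → K (∀ i, Q i)
  | 0, _, _, _ => hK.of_subsingleton _
  | n + 1, Q, _, h => hK.iso _ _ (consEquiv Q)
      (hK.prod _ _ (h 0) (hK.pi n (fun i => Q i.succ) fun i => h i.succ))

/-- A type with `n` elements. -/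
def Pt (n : ℕ) : Type := Fin n

theorem countable_group (n : ℕ) : Countable (Group (Pt n)) := by
  have : Finite (Pt n) := inferInstanceAs (Finite (Fin n))
  have : Function.Injective
      (fun (s : Group (Pt n)) => (HMul.hMul : Pt n → Pt n → Pt n)) := by
    intro s t h
    exact Group.ext h
  exact this.countable

/-- The groups of the class can be enumerated. -/
theorem GroupClass.exists_enum (hK : GroupClass K) :
    ∃ (e : ℕ → Type) (_ : ∀ j, Group (e j)), (∀ j, K (e j)) ∧
      ∀ (Q : Type) [Group Q], K Q → ∃ j, Nonempty (Q ≃* e j) := by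
  let T : Type := Σ n : ℕ, {s : Group (Pt n) // @K (Pt n) s}
  have : ∀ n, Countable (Group (Pt n)) := countable_group
  have : Countable T := inferInstanceAs (Countable (Σ n : ℕ, {s : Group (Pt n) // @K (Pt n) s}))
  have key : ∀ (Q : Type) [Group Q], K Q → ∃ (n : ℕ) (s : Group (Pt n)), @K (Pt n) s ∧
      Nonempty (Q ≃* Pt n) := by
    intro Q _ hQ
    have := hK.finite Q hQ
    let e : Q ≃ Pt (Nat.card Q) := Finite.equivFin Q
    let s : Group (Pt (Nat.card Q)) := e.symm.group
    have h1 : Q ≃* Pt (Nat.card Q) := (e.symm.mulEquiv).symm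
    exact ⟨Nat.card Q, s, hK.iso _ _ h1 hQ, ⟨h1⟩⟩
  have : Nonempty T := by
    obtain ⟨n, s, h, _⟩ := key Unit hK.unit
    exact ⟨⟨n, s, h⟩⟩
  obtain ⟨t, ht⟩ := exists_surjective_nat T
  refine ⟨fun j => Pt (t j).1, fun j => (t j).2.1, fun j => (t j).2.2, fun Q _ hQ => ?_⟩
  obtain ⟨n, s, h, hx⟩ := key Q hQ
  obtain ⟨j, hj⟩ := ht ⟨n, s, h⟩
  refine ⟨j, ?_⟩
  change Nonempty (@MulEquiv Q (Pt (t j).1) _ (t j).2.1.toMul)
  rw [hj]
  exact hx

/-- **The zero-one law.** -/
theorem GroupClass.exists_universal (hK : GroupClass K) {I : Type} [Countable I] (P : I → Type)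
    [∀ i, Group (P i)] (hfg : ∀ i, Group.FG (P i)) (ε : ℕ → ℝ) (hε : ∀ m, 0 < ε m) :
    ∃ (Q : ℕ → Type) (_ : ∀ m, Group (Q m)), (∀ m, K (Q m)) ∧ ∀ (i : I) (S : Set (P i)),
      (∀ (R : Type) [Group R], K R → ∀ φ : P i →* R, ∀ w ∈ S, φ w = 1) ∨
      ∀ᶠ m in atTop, (Nat.card {φ : P i →* Q m // ∀ w ∈ S, φ w = 1} : ℝ) /
        Nat.card (P i →* Q m) ≤ ε m := by
  obtain ⟨e, _, he, hsurj⟩ := hK.exists_enum
  rcases isEmpty_or_nonempty I with hI | hI
  · exact ⟨e, inferInstance, he, fun i => (hI.false i).elim⟩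
  obtain ⟨f, hf⟩ := exists_surjective_nat I
  let R : ℕ → Type := fun m => ∀ j : Fin m, e j
  have hR : ∀ m, K (R m) := fun m => hK.pi m (fun j => e j) fun j => he j
  have hRfin : ∀ m, Finite (R m) := fun m => hK.finite _ (hR m)
  have hN : ∀ m : ℕ, ∃ N : ℕ, ∀ k ≤ m,
      ((1 : ℝ) - 1 / Nat.card (P (f k) →* R m)) ^ N ≤ ε m := by
    intro m
    have h1 : ∀ k, ∀ᶠ N : ℕ in atTop,
        ((1 : ℝ) - 1 / Nat.card (P (f k) →* R m)) ^ N ≤ ε m := by
      intro k
      have := finite_hom (P (f k)) (R m) (hfg _)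
      have h2 : (0 : ℝ) < Nat.card (P (f k) →* R m) := Nat.cast_pos.2 Nat.card_pos
      have h3 : (1 : ℝ) ≤ Nat.card (P (f k) →* R m) := by
        exact_mod_cast (Nat.card_pos : 0 < Nat.card (P (f k) →* R m))
      have h4 : Tendsto (fun N : ℕ => ((1 : ℝ) - 1 / Nat.card (P (f k) →* R m)) ^ N) atTop
          (𝓝 0) := by
        apply tendsto_pow_atTop_nhds_zero_of_lt_one
        · rw [sub_nonneg, div_le_one h2]
          exact h3
        · have : (0 : ℝ) < 1 / Nat.card (P (f k) →* R m) := by positivity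
          linarith
      exact (h4.eventually_lt_const (hε m)).mono fun N hN => hN.le
    have h5 : ∀ᶠ N : ℕ in atTop, ∀ k ∈ Finset.range (m + 1),
        ((1 : ℝ) - 1 / Nat.card (P (f k) →* R m)) ^ N ≤ ε m :=
      (Filter.eventually_all_finset _).2 fun k _ => h1 k
    obtain ⟨N, hN⟩ := h5.exists
    exact ⟨N, fun k hk => hN k (Finset.mem_range.2 (by omega))⟩
  choose N hN using hN
  refine ⟨fun m => Fin (N m) → R m, inferInstance,
    fun m => hK.pi (N m) (fun _ => R m) fun _ => hR m, fun i S => ?_⟩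
  by_cases h : ∀ (R : Type) [Group R], K R → ∀ φ : P i →* R, ∀ w ∈ S, φ w = 1
  · exact Or.inl h
  · right
    push Not at h
    obtain ⟨Q, _, hQ, φ, w, hw, hne⟩ := h
    obtain ⟨j, ⟨g⟩⟩ := hsurj Q hQ
    obtain ⟨k, rfl⟩ := hf i
    have hex : ∀ m, j < m → ∃ ψ : P (f k) →* R m, ¬ ∀ w ∈ S, ψ w = 1 := by
      intro m hm
      refine ⟨(MonoidHom.mulSingle (fun j : Fin m => e j) ⟨j, hm⟩).comp
        (g.toMonoidHom.comp φ), fun hcon => ?_⟩
      have h1 := congrFun (hcon w hw) ⟨j, hm⟩
      simp only [MonoidHom.comp_apply, MonoidHom.mulSingle_apply, Pi.mulSingle_eq_same] at h1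
      exact hne (g.injective (h1.trans (map_one g).symm))
    filter_upwards [eventually_gt_atTop j, eventually_ge_atTop k] with m hm hkm
    obtain ⟨ψ, hψ⟩ := hex m hm
    exact (ratio_le (P (f k)) (R m) (hfg _) S ψ hψ (N m)).trans (hN m k hkm)

end Classes

end Vale.Agent.P215.H743
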