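import Vale.Agent.P215.H788.Final
import Vale.Agent.P215.R2.H743.ZeroOne

/-!
# P215: uniformity of the discs over classes of finite groups
-/

noncomputable section

namespace Vale.Agent.P215.H743

open Vale.Agent.P215.H788 Filter Topology

/-- The fundamental group of the thickening of a capped grope. -/
abbrev Pi1 (G : CappedGrope) : Type := FundamentalGroup G.Thickening G.basePt

/-- The framed immersed discs in the thickening of a capped grope, with the same framed boundary. -/
abbrev GDisc (G : CappedGrope) : Type := FramedDisc G.Thickening G.attach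

/-- The proportion of the homomorphisms from the fundamental group of the thickening to the finite
group `Q` which map the double point loops of the disc `D` to the identity. -/
def proportion {G : CappedGrope} (D : GDisc G) (Q : Type) [Group Q] : ℝ :=
  (Nat.card {φ : Pi1 G →* Q // D.Kills φ} : ℝ) / Nat.card (Pi1 G →* Q)

/-- Finitely many words in the double point loops. -/
def words {G : CappedGrope} (D : GDisc G) : Set (Pi1 G) :=
  (H579.exists_finset_kills D G.basePt).choose

theorem words_finite {G : CappedGrope} (D : GDisc G) : (words D).Finite :=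
  (H579.exists_finset_kills D G.basePt).choose_spec.1

theorem kills_iff {G : CappedGrope} (D : GDisc G) {Γ : Type} [Group Γ] (φ : Pi1 G →* Γ) :
    D.Kills φ ↔ ∀ w ∈ words D, φ w = 1 :=
  (H579.exists_finset_kills D G.basePt).choose_spec.2 Γ φ

theorem kills_comp_iff {G : CappedGrope} (D : GDisc G) {Γ Δ : Type} [Group Γ] [Group Δ]
    (φ : Pi1 G →* Γ) (f : Γ →* Δ) (hf : Function.Injective f) :
    D.Kills (f.comp φ) ↔ D.Kills φ := by
  simp only [kills_iff, MonoidHom.comp_apply]
  refine forall₂_congr fun w _ => ?_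
  rw [← map_one f, hf.eq_iff]

theorem kills_comp {G : CappedGrope} (D : GDisc G) {Γ Δ : Type} [Group Γ] [Group Δ]
    (φ : Pi1 G →* Γ) (f : Γ →* Δ) (h : D.Kills φ) : D.Kills (f.comp φ) := by
  rw [kills_iff] at h ⊢
  intro w hw
  rw [MonoidHom.comp_apply, h w hw, map_one]

/-- Subgroups of good groups are good. -/
theorem good_of_injective {Γ Δ : Type} [Group Γ] [Group Δ] (f : Γ →* Δ)
    (hf : Function.Injective f) (h : Good Δ) : Good Γ := by
  intro G φ
  obtain ⟨D, hD⟩ := h G (f.comp φ)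
  exact ⟨D, (kills_comp_iff D φ f hf).1 hD⟩

theorem fg_pi1 (G : CappedGrope) : Group.FG (Pi1 G) := H579.fg_thickening G G.basePt

theorem countable_pi1 (G : CappedGrope) : Countable (Pi1 G) := by
  obtain ⟨S, hS, hfin⟩ := (Group.fg_iff (G := Pi1 G)).1 (fg_pi1 G)
  obtain ⟨r, q, hq⟩ := hfin.fin_param
  have : Countable (FreeGroup (Fin r)) := by
    have : Function.Injective (FreeGroup.toWord (α := Fin r)) := FreeGroup.toWord_injective
    exact this.countable
  have hsurj : Function.Surjective (FreeGroup.lift q) := by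
    rw [← MonoidHom.range_eq_top, FreeGroup.range_lift_eq_closure, hq.2, hS]
  exact hsurj.countable

section

variable {K : (Q : Type) → [Group Q] → Prop}

/-- The group `Γ` is residually a `K`-group. -/
def Residually (K : (Q : Type) → [Group Q] → Prop) (Γ : Type) [Group Γ] : Prop :=
  ∀ g : Γ, g ≠ 1 → ∃ (Q : Type) (_ : Group Q) (f : Γ →* Q), K Q ∧ f g ≠ 1

/-- Finitely many discs serve all homomorphisms to `K`-groups. -/
def FinitelyMany (K : (Q : Type) → [Group Q] → Prop) : Prop :=
  ∀ G : CappedGrope, ∃ L : List (GDisc G), ∀ (Q : Type) [Group Q], K Q →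
    ∀ φ : Pi1 G →* Q, ∃ D ∈ L, D.Kills φ

/-- One disc serves all homomorphisms to `K`-groups. -/
def OneDisc (K : (Q : Type) → [Group Q] → Prop) : Prop :=
  ∀ G : CappedGrope, ∃ D : GDisc G, ∀ (Q : Type) [Group Q], K Q → ∀ φ : Pi1 G →* Q, D.Kills φ

/-- For each sequence of homomorphisms to `K`-groups there is a disc which serves infinitely many
of them. -/
def Sequences (K : (Q : Type) → [Group Q] → Prop) : Prop :=
  ∀ (G : CappedGrope) (Q : ℕ → Type) [∀ i, Group (Q i)], (∀ i, K (Q i)) →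
    ∀ φ : ∀ i, Pi1 G →* Q i, ∃ D : GDisc G, {i | D.Kills (φ i)}.Infinite

theorem exists_not_kills (hK : GroupClass K) {G : CappedGrope} (L : List (GDisc G))
    (hL : ∀ D ∈ L, ∃ (Q : Type) (_ : Group Q), K Q ∧ ∃ φ : Pi1 G →* Q, ¬ D.Kills φ) :
    ∃ (Q : Type) (_ : Group Q), K Q ∧ ∃ φ : Pi1 G →* Q, ∀ D ∈ L, ¬ D.Kills φ := by
  induction L with
  | nil => exact ⟨Unit, inferInstance, hK.unit, 1, by simp⟩
  | cons D L ih =>
    obtain ⟨Q, _, hQ, φ, hφ⟩ := ih fun E hE => hL E (List.mem_cons_of_mem _ hE)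
    obtain ⟨Q', _, hQ', φ', hφ'⟩ := hL D List.mem_cons_self
    refine ⟨Q' × Q, inferInstance, hK.prod _ _ hQ' hQ, φ'.prod φ, ?_⟩
    intro E hE hk
    rcases List.mem_cons.1 hE with rfl | hE
    · exact hφ' (by simpa using kills_comp E _ (MonoidHom.fst Q' Q) hk)
    · exact hφ E hE (by simpa using kills_comp E _ (MonoidHom.snd Q' Q) hk)

/-- The product trick: finitely many discs can be replaced by one disc. -/
theorem oneDisc_of_finitelyMany (hK : GroupClass K) (h : FinitelyMany K) : OneDisc K := by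
  intro G
  by_contra hcon
  push Not at hcon
  obtain ⟨L, hL⟩ := h G
  obtain ⟨Q, _, hQ, φ, hφ⟩ := exists_not_kills hK L fun D _ => by
    obtain ⟨Q, i, hQ, φ, hφ⟩ := hcon D
    exact ⟨Q, i, hQ, φ, hφ⟩
  obtain ⟨D, hD, hk⟩ := hL Q hQ φ
  exact hφ D hD hk

theorem good_of_oneDisc (h : OneDisc K) (Γ : Type) [Group Γ] (hΓ : Residually K Γ) : Good Γ := by
  intro G φ
  obtain ⟨D, hD⟩ := h G
  refine ⟨D, (kills_iff D φ).2 fun w hw => ?_⟩
  by_contra hne
  obtain ⟨Q, _, f, hQ, hf⟩ := hΓ _ hne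
  exact hf ((kills_iff D (f.comp φ)).1 (hD Q hQ (f.comp φ)) w hw)

theorem good_pi (h : ∀ (Γ : Type) [Group Γ], Residually K Γ → Good Γ) (Q : ℕ → Type)
    [∀ i, Group (Q i)] (hQ : ∀ i, K (Q i)) : Good (∀ i, Q i) := by
  refine h _ fun g hg => ?_
  obtain ⟨i, hi⟩ := Function.ne_iff.1 hg
  exact ⟨Q i, inferInstance, Pi.evalMonoidHom _ i, hQ i, hi⟩

theorem sequences_of_good
    (h : ∀ (Q : ℕ → Type) [∀ i, Group (Q i)], (∀ i, K (Q i)) → Good (∀ i, Q i)) :
    Sequences K := by
  intro G Q _ hQ φ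
  obtain ⟨D, hD⟩ := h Q hQ G (MonoidHom.pi φ)
  refine ⟨D, ?_⟩
  have : {i | D.Kills (φ i)} = Set.univ := by
    ext i
    simp only [Set.mem_ofPred_eq, Set.mem_univ, iff_true]
    exact kills_comp D _ (Pi.evalMonoidHom _ i) hD
  rw [this]
  exact Set.infinite_univ

/-- Compactness. -/
theorem finitelyMany_of_sequences (h : Sequences K) : FinitelyMany K := by
  classical
  intro G
  by_contra hcon
  push Not at hcon
  have := countable_pi1 G
  have hc : (Set.range (words (G := G))).Countable := by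
    refine (Set.countable_ofPred_finite_subset (Set.countable_univ (α := Pi1 G))).mono ?_
    rintro _ ⟨D, rfl⟩
    exact ⟨words_finite D, Set.subset_univ _⟩
  obtain ⟨f, hf⟩ := Set.countable_iff_exists_subset_range.1 hc
  let rep : ℕ → Option (GDisc G) := fun k =>
    if hk : ∃ D : GDisc G, words D = f k then some hk.choose else none
  let L : ℕ → List (GDisc G) := fun m => (List.range (m + 1)).filterMap rep
  have hL := fun m => hcon (L m)
  choose Q inst hQ φ hφ using hL
  obtain ⟨D, hD⟩ := h G Q hQ φ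
  obtain ⟨k, hk⟩ := hf ⟨D, rfl⟩
  obtain ⟨m, hm, hkm⟩ := hD.exists_gt k
  have hex : ∃ D' : GDisc G, words D' = f k := ⟨D, hk.symm⟩
  have hrep : rep k = some hex.choose := dif_pos hex
  have hmem : hex.choose ∈ L m :=
    List.mem_filterMap.2 ⟨k, List.mem_range.2 (by omega), hrep⟩
  refine hφ m _ hmem ((kills_iff _ _).2 ?_)
  rw [hex.choose_spec, hk]
  exact (kills_iff _ _).1 hm

theorem sequences_of_finitelyMany (h : FinitelyMany K) : Sequences K := by
  intro G Q _ hQ φ
  obtain ⟨L, hL⟩ := h G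
  by_contra hcon
  push Not at hcon
  have h1 : (⋃ D ∈ {D | D ∈ L}, {i | D.Kills (φ i)}).Finite :=
    Set.Finite.biUnion L.finite_toSet fun D _ => hcon D
  refine Set.infinite_univ (h1.subset fun i _ => ?_)
  obtain ⟨D, hD, hk⟩ := hL (Q i) (hQ i) (φ i)
  exact Set.mem_biUnion hD hk

theorem finitelyMany_of_oneDisc (h : OneDisc K) : FinitelyMany K := by
  intro G
  obtain ⟨D, hD⟩ := h G
  exact ⟨[D], fun Q _ hQ φ => ⟨D, List.mem_singleton.2 rfl, hD Q hQ φ⟩⟩

/-- If all groups are good, one disc serves all homomorphisms to all groups. -/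
theorem oneDisc_of_good (h : ∀ (Γ : Type) [Group Γ], Good Γ) : OneDisc K := by
  intro G
  obtain ⟨D, hD⟩ := h (Pi1 G) G (MonoidHom.id _)
  exact ⟨D, fun Q _ _ φ => by simpa using kills_comp D _ φ hD⟩

theorem proportion_eq_one {G : CappedGrope} (D : GDisc G) (Q : Type) [Group Q] [Finite Q]
    (h : ∀ φ : Pi1 G →* Q, D.Kills φ) : proportion D Q = 1 := by
  have := finite_hom (Pi1 G) Q (fg_pi1 G)
  unfold proportion
  rw [Nat.card_congr (Equiv.subtypeUnivEquiv h)]
  exact div_self (Nat.cast_ne_zero.2 Nat.card_pos.ne')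

/-- **The zero-one law for discs.** -/
theorem zero_one (hK : GroupClass K) (ε : ℕ → ℝ) (hε : ∀ m, 0 < ε m) :
    ∃ (Q : ℕ → Type) (_ : ∀ m, Group (Q m)), (∀ m, K (Q m)) ∧
      ∀ (G : CappedGrope) (D : GDisc G),
        (∀ (R : Type) [Group R], K R → ∀ φ : Pi1 G →* R, D.Kills φ) ∨
        ∀ᶠ m in atTop, proportion D (Q m) ≤ ε m := by
  obtain ⟨Q, i, hQ, h⟩ := hK.exists_universal (I := CappedGrope) Pi1 fg_pi1 ε hε
  refine ⟨Q, i, hQ, fun G D => ?_⟩
  refine (h G (words D)).imp (fun h1 R _ hR φ => (kills_iff D φ).2 (h1 R hR φ)) fun h1 => ?_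
  filter_upwards [h1] with m hm
  unfold proportion
  rwa [Nat.card_congr (Equiv.subtypeEquivRight fun φ => kills_iff D φ)]

end

end Vale.Agent.P215.H743
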